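import Vale.Agent.P032X.H61.SymF

set_option maxRecDepth 1000000

namespace Vale.Agent.P032X.Cert.X1b.Y

open Vale.Agent.P032.H61

/-- the tree of the patterns of rank 1 -/
def tr1 : PTr := .node (.node (.node (.node (.leaf 0x121000210000003740000649340c00013408000004140013221000133010001300100013440c0013340c001314080012020800121008001246040013060400131404001336000012240000125200001342000013320000132200001350000013400000132000001310000013) (.leaf 0x400006492000064900000649320c00014002001704140013301000131010001300100013440c0013340c001302080012300800132008001346040013140400132004001310040013360000122400001242000013320000132200001300000012)) (.node (.leaf 0x121400e0500800f6220800e0300800374000066900000669000000e920060017001000f2300400f33410001222100013540c0013100c00130608001302080013300800131008001300080013440400132404001340040013200400135600001346000013160000132400001252000013420000133200001350000013400000133000001320000013) (.leaf 0x121400e13008003740000669000006691014003234100012540c0013100c00130608001330080013200800131008001300080013440400132404001342040013320400132204001340040013200400134600001316000013240000125200001342000013320000132200001300000012))) (.node (.node (.leaf 0x500800f642000001200600161014003234100012540c0013020c0013100c001306080013300800131008001300080013440400131404001332040013220400134004001330040013200400135600001346000013160000132400001252000013420000133200001340000013300000132000001310000013) (.leaf 0x10080037460c0001340c0001000a001604140013441000122210001330100013440c0013340c0013300c0013140800121404001320040013100400134600001316000013240000125200001342000013320000132200001350000013400000133000001320000013))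 (.node (.leaf 0x10080037460c000146080000340c0001041400133210001322100013301000132010001300100013440c0013340c0013020800120604001314040013360000122400001242000013320000132200001350000013300000132000001310000013) (.leaf 0x30080037460c0001340c00014002001604140013441000123210001322100013301000131010001300100013560c0013140800120208001206040013140400134600001316000013240000125200001342000013320000132200001350000013300000132000001310000013)))) (.node (.node (.node (.leaf 0x10080037460c0001340c0001000a001704140013261000134410001212100012160c0013340c0013300c00131408001232080013220800130208001330080013200800130008001314040013200400134600001316000013240000125200001342000013320000132200001300000012) (.leaf 0x500800f7220800e0200000f74200000120060016300400f31410003316140013041400133410001222100013020c0013100c001302080013100800130008001344040013400400132004001356000013460000131600001324000012420000133200001300000012)) (.node (.leaf 0x20800204000066930000668341000122210001330100012540c0013220c0013020c00132608001306080013200800131008001344040013240400134004001320040013460000131600001324000012520000134200001332000013220000134000001320000013) (.leaf 0x321000e142140020041400131210001240100012440c0013340c0013500c0013320800131404001332040013200400135600001346000013160000132400001242000013320000132200001350000013300000132000001310000013))) (.node (.node (.leaf 0x140400001400000142000001400200163014001334100012100c0013060800132408001314080013440400132404001320040013560000134600001316000013240000125200001342000013320000133000001320000013)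 (.leaf 0x500800f7220800e0300800371008003720060017001000f214100033221400133410001222100013540c0013020c0013100c00130608001324080013140800130208001344040013240400131404001304040013320400134004001320040013560000134600001316000013240000125200001342000013320000132200001300000012)) (.leaf 0x30080037100800374002001720080033001400133410001230100012340c0013140c0013500c00130208001340080012440400132404001342040013320400132204001316000013240000125200001342000013320000132200001300000012)))

end Vale.Agent.P032X.Cert.X1b.Y
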