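import Vale.Agent.P032X.H892.LtH
import Vale.Agent.P032X.H286.Z73
import Vale.Agent.P032X.Cert.X1b.Y.R0Q000

set_option maxRecDepth 1000000

namespace Vale.Agent.P032X.Cert.X1b.Y.R0H000

open Vale.Agent.P032.H820.K Vale.Agent.P032.H357.MK Vale.Agent.P032.H286.E Vale.Agent.P032.H61 

def E : List (List ℕ) := EZ 31

theorem p0 : Pat 73 73 TBm TCm E R0Q000.P0 R0Q000.I0 := pat_step (by decide +kernel) (q_cons (Vale.Agent.P032.Lt.q R0Q000.q0_0) q_nil)

theorem p1 : Pat 73 73 TBm TCm E R0Q000.P1 R0Q000.I1 := pat_step (by decide +kernel) (q_cons (Vale.Agent.P032.Lt.q R0Q000.q1_0) q_nil)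

theorem p2 : Pat 73 73 TBm TCm E R0Q000.P2 R0Q000.I2 := pat_step (by decide +kernel) (q_cons (Vale.Agent.P032.Lt.q R0Q000.q2_0) q_nil)

def L : List (List ℕ) := [R0Q000.P0, R0Q000.P1, R0Q000.P2]

theorem all : ∀ P ∈ L, Crt 73 73 TBm TCm E P := crt_cons p0 (crt_cons p1 (crt_cons p2 crt_nil))

end Vale.Agent.P032X.Cert.X1b.Y.R0H000
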