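import Vale.Agent.P032X.H61.SymF

set_option maxRecDepth 1000000

namespace Vale.Agent.P032X.Cert.X1b.Y

open Vale.Agent.P032.H61

/-- the tree of the patterns of rank 0 -/
def tr0 : PTr := .node (.node (.leaf 0x214001306100012020c001340080013300800131008001344040013340400134204001332040013120400134600001336000013260000130400001250000012) (.leaf 0x5410001302100013060c001244080013140800134208001312080013020800134604001316040013060400134004001330040013200400134400001334000013240000130400001342000013320000132200001300000012)) (.leaf 0x2013704140020221400122610001350100013120c0013000c001320080013000800133404001340040013200400131004001354000013440000133400001340000013300000132000001310000013)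

end Vale.Agent.P032X.Cert.X1b.Y
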