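import Vale.Agent.P032X.H286.W73
import Vale.Agent.P032X.Cert.X1b.Y.R0T
import Vale.Agent.P032X.Cert.X1b.Y.R0H000

namespace Vale.Agent.P032X.Cert.X1b.Y

open Vale.Agent.P032.H820.K Vale.Agent.P032.H357.MK Vale.Agent.P032.H286.E Vale.Agent.P032.H61 Vale.Agent.P032.H61.TF Vale.Agent.P032.BlkE Vale.Agent.P032.BlkS Vale.Agent.P032.H357 Vale.Agent.P032

def L0 : List (List ℕ) := R0H000.L

theorem all0 : ∀ P ∈ L0, Crt 73 73 TBm TCm (EZ 31) P :=
  R0H000.all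

theorem ch0 : chT 73 73 TCm tr0 L0 = true := by decide +kernel

theorem d0 : D1 tr0 := d1_of ch0 all0

end Vale.Agent.P032X.Cert.X1b.Y
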