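import Vale.Agent.P032X.H892.LtH
import Vale.Agent.P032X.H286.W73
import Vale.Agent.P032X.Cert.X1b.Y.R0T
import Vale.Agent.P032X.Cert.X1b.Y.R1Q000
import Vale.Agent.P032X.Cert.X1b.Y.R1Q001
import Vale.Agent.P032X.Cert.X1b.Y.R1Q002

set_option maxRecDepth 1000000

namespace Vale.Agent.P032X.Cert.X1b.Y.R1H000

open Vale.Agent.P032.H820.K Vale.Agent.P032.H357.MK Vale.Agent.P032.H286.E Vale.Agent.P032.H61 Vale.Agent.P032X.Cert.X1b.Y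

noncomputable abbrev Fm : ℕ → List ℕ := Vale.Agent.P032.Fam.fam1 (Vale.Agent.P032.TW.imX 5 tr0)

def CB : List ℕ := [0, 4, 8, 12, 16, 20, 24]

theorem eB : Vale.Agent.P032.Lt.eqLL (CB.map Fm) R1Q000.E = true := by decide +kernel

def C0 : List ℕ := [0, 4, 8, 12, 16, 20, 24, 8564931]
theorem p0 : Pat 73 73 TBm TCm (C0.map Fm) R1Q000.P0 R1Q000.I0 := Vale.Agent.P032.Lt.pat_eq (E' := R1Q000.E0) (by decide +kernel) (pat_step (by decide +kernel) (q_cons (Vale.Agent.P032.Lt.q R1Q000.q0_0) (q_cons (Vale.Agent.P032.Lt.q R1Q000.q0_1) (q_cons (Vale.Agent.P032.Lt.q R1Q000.q0_2) (q_cons (Vale.Agent.P032.Lt.q R1Q000.q0_3) (q_cons (Vale.Agent.P032.Lt.q R1Q000.q0_4) (q_cons (Vale.Agent.P032.Lt.q R1Q000.q0_5) (q_cons (Vale.Agent.P032.Lt.q R1Q000.q0_6) (q_cons (Vale.Agent.P032.Lt.q R1Q000.q0_7) (q_cons (Vale.Agent.P032.Lt.q R1Q000.q0_8)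 (q_cons (Vale.Agent.P032.Lt.q R1Q000.q0_9) (q_cons (Vale.Agent.P032.Lt.q R1Q000.q0_10) (q_cons (Vale.Agent.P032.Lt.q R1Q000.q0_11) (q_cons (Vale.Agent.P032.Lt.q R1Q000.q0_12) (q_cons (Vale.Agent.P032.Lt.q R1Q000.q0_13) (q_cons (Vale.Agent.P032.Lt.q R1Q000.q0_14) (q_cons (Vale.Agent.P032.Lt.q R1Q000.q0_15) (q_cons (Vale.Agent.P032.Lt.q R1Q000.q0_16) (q_cons (Vale.Agent.P032.Lt.q R1Q000.q0_17) (q_cons (Vale.Agent.P032.Lt.q R1Q000.q0_18) q_nil))))))))))))))))))))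

def C1 : List ℕ := [0, 4, 8, 12, 16, 20, 24, 184419]
theorem p1 : Pat 73 73 TBm TCm (C1.map Fm) R1Q000.P1 R1Q000.I1 := Vale.Agent.P032.Lt.pat_eq (E' := R1Q000.E1) (by decide +kernel) (pat_step (by decide +kernel) (q_cons (Vale.Agent.P032.Lt.q R1Q000.q1_0) (q_cons (Vale.Agent.P032.Lt.q R1Q000.q1_1) (q_cons (Vale.Agent.P032.Lt.q R1Q000.q1_2) (q_cons (Vale.Agent.P032.Lt.q R1Q000.q1_3) (q_cons (Vale.Agent.P032.Lt.q R1Q000.q1_4) (q_cons (Vale.Agent.P032.Lt.q R1Q000.q1_5) (q_cons (Vale.Agent.P032.Lt.q R1Q000.q1_6) (q_cons (Vale.Agent.P032.Lt.q R1Q000.q1_7) (q_cons (Vale.Agent.P032.Lt.q R1Q000.q1_8) (q_cons (Vale.Agent.P032.Lt.q R1Q000.q1_9) (q_cons (Vale.Agent.P032.Lt.q R1Q000.q1_10) (q_cons (Vale.Agent.P032.Lt.q R1Q000.q1_11) (q_cons (Vale.Agent.P032.Lt.q R1Q000.q1_12) (q_cons (Vale.Agent.P032.Lt.q R1Q000.q1_13) (q_cons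 (Vale.Agent.P032.Lt.q R1Q000.q1_14) (q_cons (Vale.Agent.P032.Lt.q R1Q000.q1_15) q_nil)))))))))))))))))

def C2 : List ℕ := [0, 4, 8, 12, 16, 20, 24, 189699]
theorem p2 : Pat 73 73 TBm TCm (C2.map Fm) R1Q000.P2 R1Q000.I2 := Vale.Agent.P032.Lt.pat_eq (E' := R1Q000.E2) (by decide +kernel) (pat_step (by decide +kernel) (q_cons (Vale.Agent.P032.Lt.q R1Q000.q2_0) (q_cons (Vale.Agent.P032.Lt.q R1Q000.q2_1) (q_cons (Vale.Agent.P032.Lt.q R1Q000.q2_2) (q_cons (Vale.Agent.P032.Lt.q R1Q000.q2_3) (q_cons (Vale.Agent.P032.Lt.q R1Q000.q2_4) (q_cons (Vale.Agent.P032.Lt.q R1Q000.q2_5) (q_cons (Vale.Agent.P032.Lt.q R1Q000.q2_6) (q_cons (Vale.Agent.P032.Lt.q R1Q000.q2_7) (q_cons (Vale.Agent.P032.Lt.q R1Q000.q2_8) (q_cons (Vale.Agent.P032.Lt.q R1Q000.q2_9) (q_cons (Vale.Agent.P032.Lt.q R1Q000.q2_10) (q_cons (Vale.Agent.P032.Lt.q R1Q000.q2_11)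 (q_cons (Vale.Agent.P032.Lt.q R1Q000.q2_12) (q_cons (Vale.Agent.P032.Lt.q R1Q000.q2_13) (q_cons (Vale.Agent.P032.Lt.q R1Q000.q2_14) (q_cons (Vale.Agent.P032.Lt.q R1Q000.q2_15) (q_cons (Vale.Agent.P032.Lt.q R1Q000.q2_16) q_nil))))))))))))))))))

def C3 : List ℕ := [0, 4, 8, 12, 16, 20, 24, 189699]
theorem p3 : Pat 73 73 TBm TCm (C3.map Fm) R1Q000.P3 R1Q000.I3 := Vale.Agent.P032.Lt.pat_eq (E' := R1Q000.E3) (by decide +kernel) (pat_step (by decide +kernel) (q_cons (Vale.Agent.P032.Lt.q R1Q000.q3_0) (q_cons (Vale.Agent.P032.Lt.q R1Q000.q3_1) (q_cons (Vale.Agent.P032.Lt.q R1Q000.q3_2) (q_cons (Vale.Agent.P032.Lt.q R1Q000.q3_3) (q_cons (Vale.Agent.P032.Lt.q R1Q000.q3_4) (q_cons (Vale.Agent.P032.Lt.q R1Q000.q3_5) (q_cons (Vale.Agent.P032.Lt.q R1Q000.q3_6) (q_cons (Vale.Agent.P032.Lt.q R1Q000.q3_7) (q_cons (Vale.Agent.P032.Lt.q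 R1Q000.q3_8) (q_cons (Vale.Agent.P032.Lt.q R1Q000.q3_9) (q_cons (Vale.Agent.P032.Lt.q R1Q000.q3_10) (q_cons (Vale.Agent.P032.Lt.q R1Q000.q3_11) (q_cons (Vale.Agent.P032.Lt.q R1Q000.q3_12) (q_cons (Vale.Agent.P032.Lt.q R1Q000.q3_13) (q_cons (Vale.Agent.P032.Lt.q R1Q000.q3_14) (q_cons (Vale.Agent.P032.Lt.q R1Q000.q3_15) (q_cons (Vale.Agent.P032.Lt.q R1Q000.q3_16) q_nil))))))))))))))))))

def C4 : List ℕ := [0, 4, 8, 12, 16, 20, 24, 8534179]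
theorem p4 : Pat 73 73 TBm TCm (C4.map Fm) R1Q000.P4 R1Q000.I4 := Vale.Agent.P032.Lt.pat_eq (E' := R1Q000.E4) (by decide +kernel) (pat_step (by decide +kernel) (q_cons (Vale.Agent.P032.Lt.q R1Q000.q4_0) (q_cons (Vale.Agent.P032.Lt.q R1Q000.q4_1) (q_cons (Vale.Agent.P032.Lt.q R1Q000.q4_2) (q_cons (Vale.Agent.P032.Lt.q R1Q000.q4_3) (q_cons (Vale.Agent.P032.Lt.q R1Q000.q4_4) (q_cons (Vale.Agent.P032.Lt.q R1Q000.q4_5) (q_cons (Vale.Agent.P032.Lt.q R1Q000.q4_6) (q_cons (Vale.Agent.P032.Lt.q R1Q000.q4_7) (q_cons (Vale.Agent.P032.Lt.q R1Q000.q4_8) (q_cons (Vale.Agent.P032.Lt.q R1Q000.q4_9) (q_cons (Vale.Agent.P032.Lt.q R1Q000.q4_10) q_nil))))))))))))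

def C5 : List ℕ := [0, 4, 8, 12, 16, 20, 24, 8564931]
theorem p5 : Pat 73 73 TBm TCm (C5.map Fm) R1Q000.P5 R1Q000.I5 := Vale.Agent.P032.Lt.pat_eq (E' := R1Q000.E5) (by decide +kernel) (pat_step (by decide +kernel) (q_cons (Vale.Agent.P032.Lt.q R1Q000.q5_0) (q_cons (Vale.Agent.P032.Lt.q R1Q000.q5_1) (q_cons (Vale.Agent.P032.Lt.q R1Q000.q5_2) (q_cons (Vale.Agent.P032.Lt.q R1Q000.q5_3) (q_cons (Vale.Agent.P032.Lt.q R1Q000.q5_4) (q_cons (Vale.Agent.P032.Lt.q R1Q000.q5_5) (q_cons (Vale.Agent.P032.Lt.q R1Q000.q5_6) (q_cons (Vale.Agent.P032.Lt.q R1Q000.q5_7) (q_cons (Vale.Agent.P032.Lt.q R1Q000.q5_8) (q_cons (Vale.Agent.P032.Lt.q R1Q000.q5_9) (q_cons (Vale.Agent.P032.Lt.q R1Q000.q5_10) (q_cons (Vale.Agent.P032.Lt.q R1Q000.q5_11) q_nil)))))))))))))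

def C6 : List ℕ := [0, 4, 8, 12, 16, 20, 24, 8564931]
theorem p6 : Pat 73 73 TBm TCm (C6.map Fm) R1Q000.P6 R1Q000.I6 := Vale.Agent.P032.Lt.pat_eq (E' := R1Q000.E6) (by decide +kernel) (pat_step (by decide +kernel) (q_cons (Vale.Agent.P032.Lt.q R1Q000.q6_0) (q_cons (Vale.Agent.P032.Lt.q R1Q000.q6_1) (q_cons (Vale.Agent.P032.Lt.q R1Q000.q6_2) (q_cons (Vale.Agent.P032.Lt.q R1Q000.q6_3) (q_cons (Vale.Agent.P032.Lt.q R1Q000.q6_4) (q_cons (Vale.Agent.P032.Lt.q R1Q000.q6_5) (q_cons (Vale.Agent.P032.Lt.q R1Q000.q6_6) (q_cons (Vale.Agent.P032.Lt.q R1Q000.q6_7) (q_cons (Vale.Agent.P032.Lt.q R1Q000.q6_8) (q_cons (Vale.Agent.P032.Lt.q R1Q000.q6_9) (q_cons (Vale.Agent.P032.Lt.q R1Q000.q6_10) (q_cons (Vale.Agent.P032.Lt.q R1Q000.q6_11) (q_cons (Vale.Agent.P032.Lt.q R1Q000.q6_12) (q_cons (Vale.Agent.P032.Lt.q R1Q000.q6_13) q_nil)))))))))))))))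

def C7 : List ℕ := [0, 4, 8, 12, 16, 20, 24, 8564931]
theorem p7 : Pat 73 73 TBm TCm (C7.map Fm) R1Q001.P7 R1Q001.I7 := Vale.Agent.P032.Lt.pat_eq (E' := R1Q001.E7) (by decide +kernel) (pat_step (by decide +kernel) (q_cons (Vale.Agent.P032.Lt.q R1Q001.q7_0) (q_cons (Vale.Agent.P032.Lt.q R1Q001.q7_1) (q_cons (Vale.Agent.P032.Lt.q R1Q001.q7_2) (q_cons (Vale.Agent.P032.Lt.q R1Q001.q7_3) (q_cons (Vale.Agent.P032.Lt.q R1Q001.q7_4) (q_cons (Vale.Agent.P032.Lt.q R1Q001.q7_5) (q_cons (Vale.Agent.P032.Lt.q R1Q001.q7_6) (q_cons (Vale.Agent.P032.Lt.q R1Q001.q7_7) (q_cons (Vale.Agent.P032.Lt.q R1Q001.q7_8) (q_cons (Vale.Agent.P032.Lt.q R1Q001.q7_9) q_nil)))))))))))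

def C8 : List ℕ := [0, 4, 8, 12, 16, 20, 24, 16966275, 8564931]
theorem p8 : Pat 73 73 TBm TCm (C8.map Fm) R1Q001.P8 R1Q001.I8 := Vale.Agent.P032.Lt.pat_eq (E' := R1Q001.E8) (by decide +kernel) (pat_step (by decide +kernel) (q_cons (Vale.Agent.P032.Lt.q R1Q001.q8_0) (q_cons (Vale.Agent.P032.Lt.q R1Q001.q8_1) (q_cons (Vale.Agent.P032.Lt.q R1Q001.q8_2) (q_cons (Vale.Agent.P032.Lt.q R1Q001.q8_3) (q_cons (Vale.Agent.P032.Lt.q R1Q001.q8_4) (q_cons (Vale.Agent.P032.Lt.q R1Q001.q8_5) (q_cons (Vale.Agent.P032.Lt.q R1Q001.q8_6) (q_cons (Vale.Agent.P032.Lt.q R1Q001.q8_7) (q_cons (Vale.Agent.P032.Lt.q R1Q001.q8_8) (q_cons (Vale.Agent.P032.Lt.q R1Q001.q8_9) (q_cons (Vale.Agent.P032.Lt.q R1Q001.q8_10) (q_cons (Vale.Agent.P032.Lt.q R1Q001.q8_11) (q_cons (Vale.Agent.P032.Lt.q R1Q001.q8_12) (q_cons (Vale.Agent.P032.Lt.q R1Q001.q8_13)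 (q_cons (Vale.Agent.P032.Lt.q R1Q001.q8_14) (q_cons (Vale.Agent.P032.Lt.q R1Q001.q8_15) (q_cons (Vale.Agent.P032.Lt.q R1Q001.q8_16) q_nil))))))))))))))))))

def C9 : List ℕ := [0, 4, 8, 12, 16, 20, 24, 189699]
theorem p9 : Pat 73 73 TBm TCm (C9.map Fm) R1Q001.P9 R1Q001.I9 := Vale.Agent.P032.Lt.pat_eq (E' := R1Q001.E9) (by decide +kernel) (pat_step (by decide +kernel) (q_cons (Vale.Agent.P032.Lt.q R1Q001.q9_0) (q_cons (Vale.Agent.P032.Lt.q R1Q001.q9_1) (q_cons (Vale.Agent.P032.Lt.q R1Q001.q9_2) (q_cons (Vale.Agent.P032.Lt.q R1Q001.q9_3) (q_cons (Vale.Agent.P032.Lt.q R1Q001.q9_4) (q_cons (Vale.Agent.P032.Lt.q R1Q001.q9_5) (q_cons (Vale.Agent.P032.Lt.q R1Q001.q9_6) (q_cons (Vale.Agent.P032.Lt.q R1Q001.q9_7) (q_cons (Vale.Agent.P032.Lt.q R1Q001.q9_8) (q_cons (Vale.Agent.P032.Lt.q R1Q001.q9_9) (q_cons (Vale.Agent.P032.Lt.q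 R1Q001.q9_10) (q_cons (Vale.Agent.P032.Lt.q R1Q001.q9_11) (q_cons (Vale.Agent.P032.Lt.q R1Q001.q9_12) (q_cons (Vale.Agent.P032.Lt.q R1Q001.q9_13) (q_cons (Vale.Agent.P032.Lt.q R1Q001.q9_14) (q_cons (Vale.Agent.P032.Lt.q R1Q001.q9_15) (q_cons (Vale.Agent.P032.Lt.q R1Q001.q9_16) (q_cons (Vale.Agent.P032.Lt.q R1Q001.q9_17) (q_cons (Vale.Agent.P032.Lt.q R1Q001.q9_18) (q_cons (Vale.Agent.P032.Lt.q R1Q001.q9_19) (q_cons (Vale.Agent.P032.Lt.q R1Q001.q9_20) (q_cons (Vale.Agent.P032.Lt.q R1Q001.q9_21) q_nil)))))))))))))))))))))))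

def C10 : List ℕ := [0, 4, 8, 12, 16, 20, 24, 8534179]
theorem p10 : Pat 73 73 TBm TCm (C10.map Fm) R1Q001.P10 R1Q001.I10 := Vale.Agent.P032.Lt.pat_eq (E' := R1Q001.E10) (by decide +kernel) (pat_step (by decide +kernel) (q_cons (Vale.Agent.P032.Lt.q R1Q001.q10_0) (q_cons (Vale.Agent.P032.Lt.q R1Q001.q10_1) (q_cons (Vale.Agent.P032.Lt.q R1Q001.q10_2) (q_cons (Vale.Agent.P032.Lt.q R1Q001.q10_3) (q_cons (Vale.Agent.P032.Lt.q R1Q001.q10_4) (q_cons (Vale.Agent.P032.Lt.q R1Q001.q10_5) (q_cons (Vale.Agent.P032.Lt.q R1Q001.q10_6) (q_cons (Vale.Agent.P032.Lt.q R1Q001.q10_7) (q_cons (Vale.Agent.P032.Lt.q R1Q001.q10_8) (q_cons (Vale.Agent.P032.Lt.q R1Q001.q10_9) (q_cons (Vale.Agent.P032.Lt.q R1Q001.q10_10) (q_cons (Vale.Agent.P032.Lt.q R1Q001.q10_11) (q_cons (Vale.Agent.P032.Lt.q R1Q001.q10_12) (q_cons (Vale.Agent.P032.Lt.q R1Q001.q10_13)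 (q_cons (Vale.Agent.P032.Lt.q R1Q001.q10_14) (q_cons (Vale.Agent.P032.Lt.q R1Q001.q10_15) q_nil)))))))))))))))))

def C11 : List ℕ := [0, 4, 8, 12, 16, 20, 24, 184419]
theorem p11 : Pat 73 73 TBm TCm (C11.map Fm) R1Q001.P11 R1Q001.I11 := Vale.Agent.P032.Lt.pat_eq (E' := R1Q001.E11) (by decide +kernel) (pat_step (by decide +kernel) (q_cons (Vale.Agent.P032.Lt.q R1Q001.q11_0) (q_cons (Vale.Agent.P032.Lt.q R1Q001.q11_1) (q_cons (Vale.Agent.P032.Lt.q R1Q001.q11_2) (q_cons (Vale.Agent.P032.Lt.q R1Q001.q11_3) (q_cons (Vale.Agent.P032.Lt.q R1Q001.q11_4) (q_cons (Vale.Agent.P032.Lt.q R1Q001.q11_5) (q_cons (Vale.Agent.P032.Lt.q R1Q001.q11_6) (q_cons (Vale.Agent.P032.Lt.q R1Q001.q11_7) (q_cons (Vale.Agent.P032.Lt.q R1Q001.q11_8) (q_cons (Vale.Agent.P032.Lt.q R1Q001.q11_9) (q_cons (Vale.Agent.P032.Lt.q R1Q001.q11_10) (q_cons (Vale.Agent.P032.Lt.q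 R1Q001.q11_11) (q_cons (Vale.Agent.P032.Lt.q R1Q001.q11_12) (q_cons (Vale.Agent.P032.Lt.q R1Q001.q11_13) (q_cons (Vale.Agent.P032.Lt.q R1Q001.q11_14) (q_cons (Vale.Agent.P032.Lt.q R1Q001.q11_15) (q_cons (Vale.Agent.P032.Lt.q R1Q001.q11_16) q_nil))))))))))))))))))

def C12 : List ℕ := [0, 4, 8, 12, 16, 20, 24, 8534179]
theorem p12 : Pat 73 73 TBm TCm (C12.map Fm) R1Q001.P12 R1Q001.I12 := Vale.Agent.P032.Lt.pat_eq (E' := R1Q001.E12) (by decide +kernel) (pat_step (by decide +kernel) (q_cons (Vale.Agent.P032.Lt.q R1Q001.q12_0) (q_cons (Vale.Agent.P032.Lt.q R1Q001.q12_1) (q_cons (Vale.Agent.P032.Lt.q R1Q001.q12_2) (q_cons (Vale.Agent.P032.Lt.q R1Q001.q12_3) (q_cons (Vale.Agent.P032.Lt.q R1Q001.q12_4) (q_cons (Vale.Agent.P032.Lt.q R1Q001.q12_5) (q_cons (Vale.Agent.P032.Lt.q R1Q001.q12_6) (q_cons (Vale.Agent.P032.Lt.q R1Q001.q12_7)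 (q_cons (Vale.Agent.P032.Lt.q R1Q001.q12_8) (q_cons (Vale.Agent.P032.Lt.q R1Q001.q12_9) (q_cons (Vale.Agent.P032.Lt.q R1Q001.q12_10) (q_cons (Vale.Agent.P032.Lt.q R1Q001.q12_11) (q_cons (Vale.Agent.P032.Lt.q R1Q001.q12_12) (q_cons (Vale.Agent.P032.Lt.q R1Q001.q12_13) (q_cons (Vale.Agent.P032.Lt.q R1Q001.q12_14) (q_cons (Vale.Agent.P032.Lt.q R1Q001.q12_15) (q_cons (Vale.Agent.P032.Lt.q R1Q001.q12_16) (q_cons (Vale.Agent.P032.Lt.q R1Q001.q12_17) q_nil)))))))))))))))))))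

def C13 : List ℕ := [0, 4, 8, 12, 16, 20, 24, 189699]
theorem p13 : Pat 73 73 TBm TCm (C13.map Fm) R1Q002.P13 R1Q002.I13 := Vale.Agent.P032.Lt.pat_eq (E' := R1Q002.E13) (by decide +kernel) (pat_step (by decide +kernel) (q_cons (Vale.Agent.P032.Lt.q R1Q002.q13_0) (q_cons (Vale.Agent.P032.Lt.q R1Q002.q13_1) (q_cons (Vale.Agent.P032.Lt.q R1Q002.q13_2) (q_cons (Vale.Agent.P032.Lt.q R1Q002.q13_3) (q_cons (Vale.Agent.P032.Lt.q R1Q002.q13_4) (q_cons (Vale.Agent.P032.Lt.q R1Q002.q13_5) (q_cons (Vale.Agent.P032.Lt.q R1Q002.q13_6) (q_cons (Vale.Agent.P032.Lt.q R1Q002.q13_7) (q_cons (Vale.Agent.P032.Lt.q R1Q002.q13_8) (q_cons (Vale.Agent.P032.Lt.q R1Q002.q13_9) (q_cons (Vale.Agent.P032.Lt.q R1Q002.q13_10) (q_cons (Vale.Agent.P032.Lt.q R1Q002.q13_11) (q_cons (Vale.Agent.P032.Lt.q R1Q002.q13_12) (q_cons (Vale.Agent.P032.Lt.q R1Q002.q13_13)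 (q_cons (Vale.Agent.P032.Lt.q R1Q002.q13_14) (q_cons (Vale.Agent.P032.Lt.q R1Q002.q13_15) (q_cons (Vale.Agent.P032.Lt.q R1Q002.q13_16) (q_cons (Vale.Agent.P032.Lt.q R1Q002.q13_17) (q_cons (Vale.Agent.P032.Lt.q R1Q002.q13_18) (q_cons (Vale.Agent.P032.Lt.q R1Q002.q13_19) q_nil)))))))))))))))))))))

def C14 : List ℕ := [0, 4, 8, 12, 16, 20, 24, 8534179]
theorem p14 : Pat 73 73 TBm TCm (C14.map Fm) R1Q002.P14 R1Q002.I14 := Vale.Agent.P032.Lt.pat_eq (E' := R1Q002.E14) (by decide +kernel) (pat_step (by decide +kernel) (q_cons (Vale.Agent.P032.Lt.q R1Q002.q14_0) (q_cons (Vale.Agent.P032.Lt.q R1Q002.q14_1) (q_cons (Vale.Agent.P032.Lt.q R1Q002.q14_2) (q_cons (Vale.Agent.P032.Lt.q R1Q002.q14_3) (q_cons (Vale.Agent.P032.Lt.q R1Q002.q14_4) (q_cons (Vale.Agent.P032.Lt.q R1Q002.q14_5) (q_cons (Vale.Agent.P032.Lt.q R1Q002.q14_6) (q_cons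 (Vale.Agent.P032.Lt.q R1Q002.q14_7) (q_cons (Vale.Agent.P032.Lt.q R1Q002.q14_8) (q_cons (Vale.Agent.P032.Lt.q R1Q002.q14_9) (q_cons (Vale.Agent.P032.Lt.q R1Q002.q14_10) (q_cons (Vale.Agent.P032.Lt.q R1Q002.q14_11) (q_cons (Vale.Agent.P032.Lt.q R1Q002.q14_12) (q_cons (Vale.Agent.P032.Lt.q R1Q002.q14_13) (q_cons (Vale.Agent.P032.Lt.q R1Q002.q14_14) (q_cons (Vale.Agent.P032.Lt.q R1Q002.q14_15) (q_cons (Vale.Agent.P032.Lt.q R1Q002.q14_16) (q_cons (Vale.Agent.P032.Lt.q R1Q002.q14_17) q_nil)))))))))))))))))))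

def L : List (List ℕ) := [R1Q000.P0, R1Q000.P1, R1Q000.P2, R1Q000.P3, R1Q000.P4, R1Q000.P5, R1Q000.P6, R1Q001.P7, R1Q001.P8, R1Q001.P9, R1Q001.P10, R1Q001.P11, R1Q001.P12, R1Q002.P13, R1Q002.P14]

theorem all : ∀ P ∈ L, CrtF 73 73 TBm TCm Fm P := crtF_cons p0 (crtF_cons p1 (crtF_cons p2 (crtF_cons p3 (crtF_cons p4 (crtF_cons p5 (crtF_cons p6 (crtF_cons p7 (crtF_cons p8 (crtF_cons p9 (crtF_cons p10 (crtF_cons p11 (crtF_cons p12 (crtF_cons p13 (crtF_cons p14 crtF_nil))))))))))))))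

end Vale.Agent.P032X.Cert.X1b.Y.R1H000
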