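import Vale.Agent.P032X.H286.W73
import Vale.Agent.P032X.Cert.X1b.Y.R1T
import Vale.Agent.P032X.Cert.X1b.Y.R0
import Vale.Agent.P032X.Cert.X1b.Y.R1H000

namespace Vale.Agent.P032X.Cert.X1b.Y

open Vale.Agent.P032.H820.K Vale.Agent.P032.H357.MK Vale.Agent.P032.H286.E Vale.Agent.P032.H61 Vale.Agent.P032.H61.TF Vale.Agent.P032.BlkE Vale.Agent.P032.BlkS Vale.Agent.P032.H357 Vale.Agent.P032

def L1 : List (List ℕ) := R1H000.L

theorem all1 : ∀ P ∈ L1, CrtF 73 73 TBm TCm (Vale.Agent.P032.Fam.fam1 (Vale.Agent.P032.TW.imX 5 tr0)) P :=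
  R1H000.all

theorem ch1 : chT 73 73 TCm tr1 L1 = true := by decide +kernel

theorem d1 : D1 tr1 := d1_im ch1 all1 d0

end Vale.Agent.P032X.Cert.X1b.Y
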