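import Vale.Agent.P032X.Cert.X1b.Y.T1
import Vale.Agent.P032X.Cert.X1b.Y.R1

namespace Vale.Agent.P032X.Cert.X1b.Y

open Vale.Agent.P032.H820.K Vale.Agent.P032.H357.MK Vale.Agent.P032.H286.E Vale.Agent.P032.H61 Vale.Agent.P032.H61.TF Vale.Agent.P032.BlkE Vale.Agent.P032.BlkS Vale.Agent.P032.H357 Vale.Agent.P032

theorem d : D1 t1 := ⟨d0, d1⟩

end Vale.Agent.P032X.Cert.X1b.Y
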