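import Vale.Agent.P032X.Cert.X1b.Y.R0T
import Vale.Agent.P032X.Cert.X1b.Y.R1T

namespace Vale.Agent.P032X.Cert.X1b.Y

open Vale.Agent.P032.H61

/-- the tree of all ranks -/
def t1 : PTr := (.node tr0 tr1)

end Vale.Agent.P032X.Cert.X1b.Y
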